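import Crest.Agent.R184A.FKRep

/-!
# Row 192, A1: Kaplansky positivity (helper395)

For an idempotent `e` of `ℂ[G]`: `e(1)` is real and nonnegative, and `e(1) = 0` forces `e = 0`.
-/

set_option autoImplicit false

noncomputable section

namespace Crest.Agent.R192.Kap395

open Crest.Agent.R184A
open scoped InnerProductSpace

variable (G : Type) [Group G]

/-- right translation: `δ_h ↦ δ_{h g}` -/
def rrho (g : G) : RL2 G →L[ℂ] RL2 G := rU (rstd G) (Equiv.mulRight g)

theorem rrho_apply (g h : G) : rrho G g (rstd G h) = rstd G (h * g) := rU_apply _ _ _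

theorem rrho_isom (g : G) (x y : RL2 G) : inner ℂ (rrho G g x) (rrho G g y) = inner ℂ x y := by
  unfold rrho rU
  simp only [ContinuousLinearEquiv.coe_coe, LinearIsometryEquiv.coe_toContinuousLinearEquiv]
  exact LinearIsometryEquiv.inner_map_map _ _ _

theorem rrho_mul_inv (g : G) (x : RL2 G) : rrho G g (rrho G g⁻¹ x) = x := by
  have h : (rrho G g).comp (rrho G g⁻¹) = ContinuousLinearMap.id ℂ _ := by
    apply rhb_ext (rstd G)
    intro i
    rw [ContinuousLinearMap.comp_apply, rrho_apply, rrho_apply]
    simp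
  exact congrArg (fun S => S x) h

theorem rrho_adj (g : G) (x y : RL2 G) :
    inner ℂ (rrho G g x) y = inner ℂ x (rrho G g⁻¹ y) := by
  rw [← rrho_isom G g x (rrho G g⁻¹ y), rrho_mul_inv]

theorem rrho_comm (g : G) (a : MonoidAlgebra ℂ G) (x : RL2 G) :
    rrho G g (rlamA G a x) = rlamA G a (rrho G g x) := by
  have h : (rrho G g).comp (rlamA G a) = (rlamA G a).comp (rrho G g) := by
    induction a using MonoidAlgebra.induction_linear with
    | zero => simp
    | add f g' hf hg =>
      rw [map_add, ContinuousLinearMap.comp_add, ContinuousLinearMap.add_comp, hf, hg]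
    | single k r =>
      apply rhb_ext (rstd G)
      intro i
      unfold rlamA
      rw [ContinuousLinearMap.comp_apply, ContinuousLinearMap.comp_apply, MonoidAlgebra.lift_single,
        _root_.smul_apply, rlam_apply, rrho_apply, _root_.smul_apply, rlam_apply, map_smul,
        rrho_apply, mul_assoc]
  exact congrArg (fun S => S x) h

/-- adjoint of a left translation against a basis vector -/
theorem inner_rlamA_left (a : MonoidAlgebra ℂ G) (x : RL2 G) :
    inner ℂ (rstd G 1) (rlamA G a x) = a.coeff.sum fun k r => r * inner ℂ (rstd G k⁻¹) x := by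
  classical
  have hc : ∀ k : G, inner ℂ (rstd G 1) (rlam G k x) = inner ℂ (rstd G k⁻¹) x := by
    intro k
    have h : (innerSL ℂ (rstd G 1)).comp (rlam G k) = innerSL ℂ (rstd G k⁻¹) := by
      apply rhb_ext (rstd G)
      intro i
      rw [ContinuousLinearMap.comp_apply, rlam_apply, innerSL_apply_apply, innerSL_apply_apply,
        orthonormal_iff_ite.mp (rstd G).orthonormal, orthonormal_iff_ite.mp (rstd G).orthonormal]
      congr 1
      apply propext
      constructor
      · intro h
        rw [eq_comm, ← eq_inv_of_mul_eq_one_right h.symm]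
      · rintro rfl
        simp
    exact congrArg (fun S => S x) h
  induction a using MonoidAlgebra.induction_linear with
  | zero => simp
  | add f g' hf hg =>
    rw [map_add, _root_.add_apply, inner_add_right, hf, hg, MonoidAlgebra.coeff_add,
      Finsupp.sum_add_index']
    · intro k; simp
    · intro k r s; ring
  | single k r =>
    unfold rlamA
    rw [MonoidAlgebra.lift_single, _root_.smul_apply, inner_smul_right, hc,
      MonoidAlgebra.coeff_single, Finsupp.sum_single_index]
    simp

variable {G}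

section Proj

variable (e : MonoidAlgebra ℂ G)

/-- the fixed space of `e` -/
def K : Submodule ℂ (RL2 G) := LinearMap.ker ((1 - rlamA G e : RL2 G →L[ℂ] RL2 G) : RL2 G →ₗ[ℂ] RL2 G)

theorem mem_K {x : RL2 G} : x ∈ K e ↔ rlamA G e x = x := by
  unfold K
  rw [LinearMap.mem_ker]
  show (1 - rlamA G e) x = 0 ↔ _
  rw [_root_.sub_apply]
  show x - rlamA G e x = 0 ↔ _
  rw [sub_eq_zero, eq_comm]

theorem K_closed : IsClosed (K e : Set (RL2 G)) := by
  unfold K
  exact (1 - rlamA G e : RL2 G →L[ℂ] RL2 G).isClosed_ker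

instance : CompleteSpace (K e) := (K_closed e).completeSpace_coe

/-- orthogonal projection onto the fixed space -/
def pr : RL2 G →L[ℂ] RL2 G := (K e).starProjection

theorem pr_mem (x : RL2 G) : pr e x ∈ K e := Submodule.starProjection_apply_mem _ _

theorem pr_of_mem {x : RL2 G} (hx : x ∈ K e) : pr e x = x :=
  Submodule.starProjection_eq_self_iff.2 hx

theorem rrho_K (g : G) {x : RL2 G} (hx : x ∈ K e) : rrho G g x ∈ K e := by
  rw [mem_K] at hx ⊢
  rw [← rrho_comm, hx]

theorem pr_rrho (g : G) (x : RL2 G) : pr e (rrho G g x) = rrho G g (pr e x) := by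
  refine (K e).eq_starProjection_of_mem_of_inner_eq_zero (rrho_K e g (pr_mem e x)) ?_
  intro w hw
  rw [← map_sub, rrho_adj]
  exact (K e).starProjection_inner_eq_zero x _ (rrho_K e g⁻¹ hw)

/-- `⟪δ_1, p δ_1⟫ = e(1)` -/
theorem inner_pr (he : e * e = e) : inner ℂ (rstd G 1) (pr e (rstd G 1)) = e.coeff 1 := by
  have h1 : rlamA G e (pr e (rstd G 1)) = pr e (rstd G 1) := (mem_K e).1 (pr_mem e _)
  have h2 : ∀ x, rlamA G e x ∈ K e := by
    intro x
    rw [mem_K, ← _root_.mul_apply_eq_comp, ← map_mul, he]
  have h3 : inner ℂ (rstd G 1) (rlamA G e (rstd G 1)) = e.coeff 1 := by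
    rw [rlamA_coeff]; simp
  have h4 : pr e (rlamA G e (rstd G 1)) = rlamA G e (rstd G 1) := pr_of_mem e (h2 _)
  rw [← h3, ← h4, ← h1, inner_rlamA_left]
  -- expand the other side
  have h5 : ∀ a : MonoidAlgebra ℂ G, inner ℂ (rstd G 1) (pr e (rlamA G a (rstd G 1))) =
      a.coeff.sum fun k r => r * inner ℂ (rstd G k⁻¹) (pr e (rstd G 1)) := by
    intro a
    induction a using MonoidAlgebra.induction_linear with
    | zero => simp
    | add f g' hf hg =>
      rw [map_add, _root_.add_apply, map_add, inner_add_right, hf, hg, MonoidAlgebra.coeff_add,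
        Finsupp.sum_add_index']
      · intro k; simp
      · intro k r s; ring
    | single k r =>
      unfold rlamA
      rw [MonoidAlgebra.lift_single, _root_.smul_apply, map_smul, inner_smul_right,
        MonoidAlgebra.coeff_single, Finsupp.sum_single_index (by simp), rlam_apply, mul_one]
      congr 1
      have h6 : rstd G k = rrho G k (rstd G 1) := by rw [rrho_apply, one_mul]
      rw [h6, pr_rrho]
      have h7 : rstd G 1 = rrho G k (rstd G k⁻¹) := by rw [rrho_apply, inv_mul_cancel]
      conv_lhs => rw [h7]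
      rw [rrho_isom]
      congr 2
      rw [← h7]
  rw [h5]

theorem norm_pr_sq (he : e * e = e) : (‖pr e (rstd G 1)‖ ^ 2 : ℝ) = e.coeff 1 := by
  rw [← inner_pr e he]
  have h := (K e).inner_starProjection_left_eq_right (rstd G 1) (pr e (rstd G 1))
  have h2 : (K e).starProjection (pr e (rstd G 1)) = pr e (rstd G 1) := pr_of_mem e (pr_mem e _)
  rw [h2] at h
  rw [← h]
  have h3 := inner_self_eq_norm_sq_to_K (𝕜 := ℂ) (pr e (rstd G 1))
  unfold pr at h3 ⊢
  rw [h3]
  norm_cast

end Proj

/-- **Kaplansky positivity**: `e(1)` is real and `≥ 0` -/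
theorem coeff_one_nonneg (e : MonoidAlgebra ℂ G) (he : e * e = e) :
    0 ≤ (e.coeff 1).re ∧ (e.coeff 1).im = 0 := by
  rw [← norm_pr_sq e he]
  constructor
  · rw [Complex.ofReal_re]; positivity
  · exact Complex.ofReal_im _

/-- **Kaplansky**: an idempotent of `ℂ[G]` with `e(1) = 0` is zero -/
theorem kaplansky (e : MonoidAlgebra ℂ G) (he : e * e = e) (h1 : e.coeff 1 = 0) : e = 0 := by
  have h := norm_pr_sq e he
  rw [h1] at h
  have h0 : pr e (rstd G 1) = 0 := by
    have : (‖pr e (rstd G 1)‖ ^ 2 : ℝ) = 0 := by exact_mod_cast h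
    simpa using this
  have h2 : ∀ k : G, pr e (rstd G k) = 0 := by
    intro k
    have h6 : rstd G k = rrho G k (rstd G 1) := by rw [rrho_apply, one_mul]
    rw [h6, pr_rrho, h0, map_zero]
  have h3 : pr e = 0 := by
    apply rhb_ext (rstd G)
    intro i
    rw [h2]; simp
  have h4 : rlamA G e (rstd G 1) = 0 := by
    have hm : rlamA G e (rstd G 1) ∈ K e := by
      rw [mem_K, ← _root_.mul_apply_eq_comp, ← map_mul, he]
    rw [← pr_of_mem e hm, h3]
    simp
  ext x
  have h5 := rlamA_coeff G e 1 x
  rw [h4, inner_zero_right] at h5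
  simpa using h5.symm

end Crest.Agent.R192.Kap395
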