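import Crest.Prelude.Def_L1GroupAlgebra
import Crest.Agent.R192.Kap_395

/-!
# Row 192, A2: S0293 over `ℂ` from the conclusion of S0292 (helper395)
-/

set_option autoImplicit false

noncomputable section

namespace Crest.Agent.R192.A2x395

open Crest.AlgebraR.L1 MonoidAlgebra

variable {G : Type} [Group G]

theorem conv_coeff (a b : MonoidAlgebra ℂ G) (x : G) :
    conv (fun g => a.coeff g) (fun g => b.coeff g) x = (a * b).coeff x := by
  classical
  show ∑' y, a.coeff y * b.coeff (y⁻¹ * x) = _
  induction a using MonoidAlgebra.induction_linear with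
  | zero => simp
  | add f g hf hg =>
    have hs : ∀ f : MonoidAlgebra ℂ G, Summable fun y => f.coeff y * b.coeff (y⁻¹ * x) := by
      intro f
      refine summable_of_ne_finset_zero (s := f.coeff.support) ?_
      intro y hy
      rw [Finsupp.notMem_support_iff.1 hy, zero_mul]
    rw [add_mul f g b, coeff_add (f * b), Finsupp.add_apply, ← hf, ← hg,
      ← (hs f).tsum_add (hs g)]
    refine tsum_congr fun y => ?_
    rw [coeff_add, Finsupp.add_apply, add_mul]
  | single k r =>
    rw [tsum_eq_single k, coeff_single, Finsupp.single_eq_same, coeff_single_mul_apply]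
    intro y hy
    rw [coeff_single, Finsupp.single_eq_of_ne hy, zero_mul]

/-- the `1 × 1` matrix of an idempotent of `ℂ[G]` is an idempotent matrix over `ℓ¹(G)` -/
theorem isL1 (e : MonoidAlgebra ℂ G) (he : e * e = e) :
    IsL1IdempotentMatrix (fun (_ _ : Fin 1) (g : G) => e.coeff g) := by
  refine ⟨fun _ _ => ?_, fun i j x => ?_⟩
  · refine summable_of_ne_finset_zero (s := e.coeff.support) ?_
    intro y hy
    show ‖e.coeff y‖ = 0
    rw [Finsupp.notMem_support_iff.1 hy, norm_zero]
  · rw [Fin.sum_univ_one, conv_coeff, he]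

theorem classTrace_one (e : MonoidAlgebra ℂ G) (C : Set G) :
    classTrace (fun (_ _ : Fin 1) (g : G) => e.coeff g) C = ∑' g : C, e.coeff (g : G) := by
  unfold classTrace
  simp

/-- the sum of all coefficients is the sum over classes -/
theorem sum_classes (e : MonoidAlgebra ℂ G) :
    ∑' g, e.coeff g = ∑' C : ConjClasses G, ∑' g : C.carrier, e.coeff (g : G) := by
  have hs : Summable fun g => e.coeff g := by
    refine summable_of_ne_finset_zero (s := e.coeff.support) ?_
    intro y hy
    exact Finsupp.notMem_support_iff.1 hy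
  have E : (Σ C : ConjClasses G, {g : G // ConjClasses.mk g = C}) ≃ G :=
    Equiv.sigmaFiberEquiv ConjClasses.mk
  rw [← (Equiv.sigmaFiberEquiv (ConjClasses.mk : G → ConjClasses G)).tsum_eq
    (fun g => e.coeff g)]
  have hs' : Summable fun c : (Σ C : ConjClasses G, {g : G // ConjClasses.mk g = C}) =>
      e.coeff ((Equiv.sigmaFiberEquiv (ConjClasses.mk : G → ConjClasses G)) c) :=
    (Equiv.summable_iff (Equiv.sigmaFiberEquiv (ConjClasses.mk : G → ConjClasses G))
      (f := fun g => e.coeff g)).2 hs
  rw [hs'.tsum_sigma]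
  refine tsum_congr fun C => ?_
  have hset : C.carrier = {g : G | ConjClasses.mk g = C} := by
    ext g; exact ConjClasses.mem_carrier_iff_mk_eq
  rw [hset]
  rfl

/-- **A2**: for a torsion free group, vanishing of the traces along the classes of elements of
infinite order implies the idempotent conjecture for `ℂ[G]`. -/
theorem zero_or_one_of_bass (hG : ∀ g : G, IsOfFinOrder g → g = 1)
    (hB : ∀ e : Fin 1 → Fin 1 → G → ℂ, IsL1IdempotentMatrix e →
      ∀ g : G, ¬ IsOfFinOrder g → classTrace e (ConjClasses.mk g).carrier = 0)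
    (e : MonoidAlgebra ℂ G) (he : e * e = e) : e = 0 ∨ e = 1 := by
  classical
  have h0 : ∀ C : ConjClasses G, C ≠ ConjClasses.mk 1 → ∑' g : C.carrier, e.coeff (g : G) = 0 := by
    intro C hC
    obtain ⟨g, rfl⟩ := ConjClasses.exists_rep C
    have hg : ¬ IsOfFinOrder g := by
      intro h
      exact hC (by rw [hG g h])
    rw [← classTrace_one]
    exact hB _ (isL1 e he) g hg
  have h1 : ∑' g, e.coeff g = e.coeff 1 := by
    rw [sum_classes, tsum_eq_single (ConjClasses.mk (1 : G)) (fun C hC => h0 C hC)]
    rw [tsum_eq_single (⟨1, ConjClasses.mem_carrier_mk⟩ : (ConjClasses.mk (1 : G)).carrier)]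
    rintro ⟨g, hg⟩ hne
    exfalso
    rw [ConjClasses.mem_carrier_iff_mk_eq, ConjClasses.mk_eq_mk_iff_isConj, isConj_one_left] at hg
    exact hne (Subtype.ext hg)
  -- augmentation
  let ε : MonoidAlgebra ℂ G →ₐ[ℂ] ℂ := MonoidAlgebra.lift ℂ ℂ G 1
  have h2 : ε e = ∑' g, e.coeff g := by
    show MonoidAlgebra.lift ℂ ℂ G 1 e = _
    rw [MonoidAlgebra.lift_apply, Finsupp.sum, tsum_eq_sum (s := e.coeff.support)]
    · simp
    · intro y hy
      exact Finsupp.notMem_support_iff.1 hy
  have h3 : ε e * ε e = ε e := by rw [← map_mul, he]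
  rw [h2, h1] at h3
  have h4 : e.coeff 1 = 0 ∨ e.coeff 1 = 1 := by
    have : e.coeff 1 * (e.coeff 1 - 1) = 0 := by rw [mul_sub, h3]; ring
    rcases mul_eq_zero.1 this with h | h
    · exact Or.inl h
    · exact Or.inr (sub_eq_zero.1 h)
  rcases h4 with h | h
  · exact Or.inl (Kap395.kaplansky e he h)
  · right
    have he' : (1 - e) * (1 - e) = 1 - e := by
      rw [mul_sub, sub_mul, sub_mul, he]; simp
    have hz : (1 - e).coeff 1 = 0 := by
      have : (1 : MonoidAlgebra ℂ G).coeff 1 = 1 := by
        rw [MonoidAlgebra.one_def, coeff_single, Finsupp.single_eq_same]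
      rw [MonoidAlgebra.coeff_sub, Finsupp.sub_apply, this, h, sub_self]
    exact (sub_eq_zero.1 (Kap395.kaplansky _ he' hz)).symm

end Crest.Agent.R192.A2x395
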