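import Crest.Agent.R192.A2_395
import Crest.Agent.R192.A3_395

/-!
# Row 192: S0293 from the second half of S0292 (helper395)
-/

set_option autoImplicit false

namespace Crest.Agent.R192.Glue395

open Crest.AlgebraR.L1

/-- S0293 from the second half of S0292 (for `1 × 1` matrices) -/
theorem s0293_of_s0292
    (h : ∀ (G : Type) [Group G] (e : Fin 1 → Fin 1 → G → ℂ), IsL1IdempotentMatrix e →
      ∀ g : G, ¬ IsOfFinOrder g → classTrace e (ConjClasses.mk g).carrier = 0)
    (G : Type) [Group G]
    (hG : ∀ g : G, IsOfFinOrder g → g = 1) (R : Type) [CommRing R] [IsDomain R] [CharZero R]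
    (e : MonoidAlgebra R G) (he : e * e = e) : e = 0 ∨ e = 1 :=
  A3x395.of_complex G (fun e he => A2x395.zero_or_one_of_bass hG (fun e he g hg => h G e he g hg) e he)
    R e he

end Crest.Agent.R192.Glue395
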